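import Vale.Agent.P333.Model

/-!
The classes P and NP (languages of binary words), and the optimal approximation ratio.
-/

namespace Vale.Agent.P333

/-- The class P: languages of binary words decided in polynomial time. -/
def classP : Set (Set (List Bool)) :=
  {L | ∃ dec : List Bool → Bool, PolyTime (fun w : List Bool => w) (fun b : Bool => [b]) dec ∧
    ∀ x, x ∈ L ↔ dec x = true}

/-- The class NP: languages of binary words with witnesses of polynomial length which are verified
in polynomial time. -/
def classNP : Set (Set (List Bool)) :=
  {L | ∃ (V : List Bool × List Bool → Bool) (p : Polynomial ℕ),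
    PolyTime (fun z : List Bool × List Bool => pairW z.1 z.2) (fun b : Bool => [b]) V ∧
    ∀ x, x ∈ L ↔ ∃ y : List Bool, y.length ≤ p.eval x.length ∧ V (x, y) = true}

/-- The infimum of the `ρ` for which there is a polynomial time `ρ`-approximation. -/
noncomputable def bestRatio : ℝ := sInf {ρ : ℝ | HasApprox ρ}

end Vale.Agent.P333
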